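import Vale.Agent.P372.Defs

/-! Elementary facts on tensor products, block operators and the trace norm. -/

open Matrix
open scoped Kronecker ComplexOrder MatrixOrder

namespace Vale.Agent.P372

variable {I A B C X : Type*}

lemma psd_eq_mul_conj [Fintype X] {P : Matrix X X ℂ} (h : P.PosSemidef) :
    ∃ L : Matrix X X ℂ, P = L * Lᴴ := by
  classical
  obtain ⟨a, rfl⟩ := CStarAlgebra.nonneg_iff_eq_star_mul_self.mp h.nonneg
  exact ⟨aᴴ, by simp [star_eq_conjTranspose]⟩

lemma piK_mul [Fintype I] [DecidableEq I] [Fintype B]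
    (M : I → Matrix A B ℂ) (N : I → Matrix B C ℂ) :
    piK M * piK N = piK (fun i => M i * N i) := by
  ext f g
  simp only [piK, mul_apply, of_apply, ← Finset.prod_mul_distrib, Fintype.prod_sum]

lemma piK_conj [Fintype I] (M : I → Matrix A B ℂ) :
    (piK M)ᴴ = piK (fun i => (M i)ᴴ) := by
  ext f g
  simp [piK, conjTranspose_apply]

lemma piK_psd [Fintype I] [Fintype A] {M : I → Matrix A A ℂ}
    (h : ∀ i, (M i).PosSemidef) : (piK M).PosSemidef := by
  classical
  choose L hL using fun i => psd_eq_mul_conj (h i)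
  have e : piK M = piK L * (piK L)ᴴ := by
    rw [piK_conj, piK_mul]
    congr 1
    funext i
    exact hL i
  rw [e]
  exact posSemidef_self_mul_conjTranspose _

lemma piK_sum {J : Type*} [Fintype I] [DecidableEq I] [Fintype J]
    (M : I → J → Matrix A B ℂ) :
    piK (fun i => ∑ j, M i j) = ∑ x : I → J, piK (fun i => M i (x i)) := by
  ext f g
  simp only [piK, of_apply, Matrix.sum_apply, Fintype.prod_sum]

lemma piK_smul_one [Fintype I] [DecidableEq A] (c : ℂ) :
    piK (fun _ : I => c • (1 : Matrix A A ℂ)) = c ^ Fintype.card I • 1 := by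
  classical
  ext f g
  simp only [piK, of_apply, Matrix.smul_apply, one_apply, smul_eq_mul, Finset.prod_mul_distrib,
    Finset.prod_const, Finset.card_univ]
  congr 1
  rw [Fintype.prod_boole]
  simp [funext_iff]

lemma piK_add_sub_psd [Fintype I] [Fintype A] {M D : I → Matrix A A ℂ}
    (hM : ∀ i, (M i).PosSemidef) (hD : ∀ i, (D i).PosSemidef) :
    (piK (fun i => M i + D i) - piK M).PosSemidef := by
  classical
  have e : (fun i => M i + D i) = fun i => ∑ j : Bool, (if j then M i else D i) := by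
    funext i
    simp
  rw [e, piK_sum, ← Finset.add_sum_erase _ _ (Finset.mem_univ fun _ => true)]
  simp only [if_true, add_sub_cancel_left]
  refine posSemidef_sum _ fun x _ => piK_psd fun i => ?_
  split_ifs
  · exact hM i
  · exact hD i

lemma piP_eq [Fintype I] (M : I → Matrix (A × B) (A × B) ℂ) :
    piP M = (piK M).submatrix (fun p i => (p.1 i, p.2 i)) (fun p i => (p.1 i, p.2 i)) := rfl

lemma piP_trace [Fintype I] [DecidableEq I] [Fintype A] [Fintype B]
    (M : I → Matrix (A × B) (A × B) ℂ) : (piP M).trace = ∏ i, (M i).trace := by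
  simp only [trace, diag_apply, piP, of_apply, Fintype.prod_sum]
  exact Fintype.sum_equiv (Equiv.arrowProdEquivProdArrow I (fun _ => A) (fun _ => B)).symm _ _
    fun p => rfl

lemma blkD_conj [DecidableEq I] (f : I → Matrix X X ℂ) :
    (blkD f)ᴴ = blkD (fun i => (f i)ᴴ) := by
  ext p q
  by_cases h : p.1 = q.1
  · simp [blkD, conjTranspose_apply, h]
  · simp [blkD, conjTranspose_apply, h, Ne.symm h]

lemma blkD_mul [Fintype I] [DecidableEq I] [Fintype X] (f g : I → Matrix X X ℂ) :
    blkD f * blkD g = blkD (fun i => f i * g i) := by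
  ext p q
  simp only [blkD, mul_apply, of_apply, Fintype.sum_prod_type]
  rw [Finset.sum_eq_single p.1]
  · by_cases h : p.1 = q.1 <;> simp [h]
  · intro b _ hb
    simp [Ne.symm hb]
  · simp

lemma blkD_psd [Fintype I] [DecidableEq I] [Fintype X] {f : I → Matrix X X ℂ}
    (h : ∀ i, (f i).PosSemidef) : (blkD f).PosSemidef := by
  choose L hL using fun i => psd_eq_mul_conj (h i)
  have e : blkD f = blkD L * (blkD L)ᴴ := by
    rw [blkD_conj, blkD_mul]
    congr 1
    funext i
    exact hL i
  rw [e]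
  exact posSemidef_self_mul_conjTranspose _

lemma blkD_one_sub [DecidableEq I] [DecidableEq X] (f : I → Matrix X X ℂ) :
    1 - blkD f = blkD (fun i => 1 - f i) := by
  ext p q
  by_cases h : p.1 = q.1
  · by_cases h2 : p.2 = q.2 <;> simp [blkD, one_apply, Prod.ext_iff, h, h2]
  · simp [blkD, Prod.ext_iff, h]

lemma blkD_sum {J : Type*} [DecidableEq I] (s : Finset J) (f : J → I → Matrix X X ℂ) :
    ∑ j ∈ s, blkD (f j) = blkD (fun i => ∑ j ∈ s, f j i) := by
  ext p q
  by_cases h : p.1 = q.1 <;> simp [blkD, h, Matrix.sum_apply]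

lemma blkD_trace [Fintype I] [DecidableEq I] [Fintype X] (f : I → Matrix X X ℂ) :
    (blkD f).trace = ∑ i, (f i).trace := by
  simp [trace, blkD, Fintype.sum_prod_type]

lemma trace_blkD_mul [Fintype I] [DecidableEq I] [Fintype X] (f g : I → Matrix X X ℂ) :
    (blkD f * blkD g).trace = ∑ i, (f i * g i).trace := by
  rw [blkD_mul, blkD_trace]

lemma psd_trace_mul_nonneg [Fintype X] {P Q : Matrix X X ℂ}
    (hP : P.PosSemidef) (hQ : Q.PosSemidef) : 0 ≤ (P * Q).trace.re := by
  obtain ⟨L, rfl⟩ := psd_eq_mul_conj hQ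
  rw [← Matrix.mul_assoc, trace_mul_comm, ← Matrix.mul_assoc]
  exact (Complex.nonneg_iff.mp (hP.conjTranspose_mul_mul_same L).trace_nonneg).1

lemma trace_mul_le [Fintype X] [DecidableEq X] {T P : Matrix X X ℂ}
    (hT : (1 - T).PosSemidef) (hP : P.PosSemidef) : (T * P).trace.re ≤ P.trace.re := by
  have := psd_trace_mul_nonneg hT hP
  rw [Matrix.sub_mul, Matrix.one_mul, trace_sub, Complex.sub_re] at this
  linarith

/-- A test operator between `0` and `1` gives a lower bound on the trace norm. -/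
lemma le_traceNorm [Fintype X] [DecidableEq X] {T M : Matrix X X ℂ} (hT : T.PosSemidef)
    (hT1 : (1 - T).PosSemidef) (hM : M.IsHermitian) :
    (T * M).trace.re ≤ traceNorm M := by
  have hs : IsSelfAdjoint M := hM
  have e1 : CFC.sqrt (Mᴴ * M) = M⁺ + M⁻ := by
    rw [CFC.posPart_add_negPart M hs]
    rfl
  have hp : (M⁺).PosSemidef := Matrix.nonneg_iff_posSemidef.mp (CFC.posPart_nonneg M)
  have hn : (M⁻).PosSemidef := Matrix.nonneg_iff_posSemidef.mp (CFC.negPart_nonneg M)
  have e2 : T * M = T * M⁺ - T * M⁻ := by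
    rw [← Matrix.mul_sub, CFC.posPart_sub_negPart M hs]
  rw [traceNorm, e1, e2, trace_sub, trace_add, Complex.sub_re, Complex.add_re]
  have h1 := trace_mul_le hT1 hp
  have h2 := psd_trace_mul_nonneg hT hn
  have h3 := (Complex.nonneg_iff.mp hn.trace_nonneg).1
  linarith

end Vale.Agent.P372
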