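import Mathlib

/-! Definitions for the statement about secret key from entangled states (P372). -/

open Matrix
open scoped Kronecker ComplexOrder MatrixOrder

namespace Vale.Agent.P372

/-- Tensor product of a finite family of matrices, indexed by functions. -/
def piK {I A B : Type*} [Fintype I] (M : I → Matrix A B ℂ) : Matrix (I → A) (I → B) ℂ :=
  Matrix.of fun f g => ∏ i, M i (f i) (g i)

/-- Tensor product of a family of bipartite operators, with all A systems grouped on the left and
all B systems grouped on the right. -/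
def piP {I A B : Type*} [Fintype I] (M : I → Matrix (A × B) (A × B) ℂ) :
    Matrix ((I → A) × (I → B)) ((I → A) × (I → B)) ℂ :=
  Matrix.of fun p q => ∏ i, M i (p.1 i, p.2 i) (q.1 i, q.2 i)

/-- Operator which is diagonal in the classical register `I`, with block `f i` at value `i`. -/
def blkD {I X : Type*} [DecidableEq I] (f : I → Matrix X X ℂ) : Matrix (I × X) (I × X) ℂ :=
  Matrix.of fun p q => if p.1 = q.1 then f p.1 p.2 q.2 else 0

/-- The trace norm `tr √(X* X)`. -/
noncomputable def traceNorm {X : Type*} [Fintype X] [DecidableEq X] (M : Matrix X X ℂ) : ℝ :=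
  (CFC.sqrt (Mᴴ * M)).trace.re

/-- A bipartite operator is separable if it is a finite sum of products of positive operators. -/
def IsSep {A B : Type*} [Fintype A] [Fintype B] (ρ : Matrix (A × B) (A × B) ℂ) : Prop :=
  ∃ (k : ℕ) (x : Fin k → Matrix A A ℂ) (y : Fin k → Matrix B B ℂ),
    (∀ i, (x i).PosSemidef) ∧ (∀ i, (y i).PosSemidef) ∧ ρ = ∑ i, x i ⊗ₖ y i

/-- The state of (both keys, transcript of the two phases, Eve's purifying system). `K t` is the
product of the Kraus operators of Alice and Bob for transcript `t` of the first phase; then Alice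
measures `M t`, announces `s`, and Bob measures `N t s`. -/
def finalState {A B X T S Key E : Type*} [Fintype A] [Fintype B] [Fintype X]
    [DecidableEq T] [DecidableEq S] [DecidableEq Key]
    (V : Matrix X E ℂ) (K : T → Matrix (A × B) X ℂ)
    (M : T → S → Key → Matrix A A ℂ) (N : T → S → Key → Matrix B B ℂ) :
    Matrix ((Key × Key) × ((T × S) × E)) ((Key × Key) × ((T × S) × E)) ℂ :=
  blkD fun k => blkD fun ts =>
    ((K ts.1 * V)ᴴ * (M ts.1 ts.2 k.1 ⊗ₖ N ts.1 ts.2 k.2) * (K ts.1 * V))ᵀ

/-- A perfect key of `L` bits, independent of the eavesdropper's state `σ`. -/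
noncomputable def idealState {W : Type*} (L : ℕ) (σ : Matrix W W ℂ) :
    Matrix (((Fin L → Bool) × (Fin L → Bool)) × W) (((Fin L → Bool) × (Fin L → Bool)) × W) ℂ :=
  blkD fun k => if k.1 = k.2 then ((2 : ℂ) ^ L)⁻¹ • σ else 0

/-- `KeyFree n ρ`: with any number `m` of blocks of `n` copies, no protocol of the following kind
distils even one bit of key. A two-way phase with public transcript `t` in which Alice's Kraus
operators `G t` are arbitrary on all her systems and Bob's are products `h t i` over the `m`
blocks; then a collective measurement of Alice giving her key and a last message `s`; then a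
collective measurement of Bob giving his key. Eve holds an arbitrary purification and `(t, s)`. -/
def KeyFree {d : ℕ} (n : ℕ) (ρ : Matrix (Fin d × Fin d) (Fin d × Fin d) ℂ) : Prop :=
  ∀ (m e T S a b L : ℕ)
    (V : Matrix ((Fin m → Fin n → Fin d) × (Fin m → Fin n → Fin d)) (Fin e) ℂ)
    (G : Fin T → Matrix (Fin a) (Fin m → Fin n → Fin d) ℂ)
    (h : Fin T → Fin m → Matrix (Fin b) (Fin n → Fin d) ℂ)
    (M : Fin T → Fin S → (Fin L → Bool) → Matrix (Fin a) (Fin a) ℂ)
    (N : Fin T → Fin S → (Fin L → Bool) → Matrix (Fin m → Fin b) (Fin m → Fin b) ℂ)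
    (σ : Matrix ((Fin T × Fin S) × Fin e) ((Fin T × Fin S) × Fin e) ℂ),
    1 ≤ L →
    V * Vᴴ = piP (fun _ : Fin m => piP (fun _ : Fin n => ρ)) →
    ∑ t, ((G t)ᴴ * G t) ⊗ₖ ((piK (h t))ᴴ * piK (h t)) = 1 →
    (∀ t s x, (M t s x).PosSemidef) → (∀ t, ∑ s, ∑ x, M t s x = 1) →
    (∀ t s x, (N t s x).PosSemidef) → (∀ t s, ∑ x, N t s x = 1) →
    σ.PosSemidef → σ.trace = 1 →
    (1 - ((2 : ℝ) ^ L)⁻¹) / 2 ≤
      traceNorm (finalState V (fun t => G t ⊗ₖ piK (h t)) M N - idealState L σ)

end Vale.Agent.P372
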