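import Vale.Agent.P372.Window

/-! A purifying party can copy the measurements of the second party of an extendible state. -/

open Matrix
open scoped Kronecker ComplexOrder MatrixOrder

namespace Vale.Agent.P372

variable {A B E R : Type*}

lemma eq_zero_of_mul_conj [Fintype A] [Fintype R] {X : Matrix A R ℂ} (h : X * Xᴴ = 0) : X = 0 :=
  Matrix.self_mul_conjTranspose_eq_zero.mp h

lemma exists_contraction [Fintype A] [Fintype E] [DecidableEq E] [Fintype R]
    (V : Matrix A E ℂ) (L : Matrix A R ℂ) (h : L * Lᴴ = V * Vᴴ) :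
    ∃ W : Matrix E R ℂ, L = V * W ∧ (1 - W * Wᴴ).PosSemidef := by
  classical
  obtain ⟨S, hS⟩ : ∃ S, S = V * Vᴴ := ⟨_, rfl⟩
  have hH : IsSelfAdjoint S := hS ▸ (isHermitian_mul_conjTranspose_self V)
  have hfin : (spectrum ℝ S).Finite := Matrix.finite_real_spectrum
  obtain ⟨P, hP⟩ : ∃ P : Matrix A A ℂ, P = cfc (fun x : ℝ => x⁻¹) S := ⟨_, rfl⟩
  have hPH : Pᴴ = P := hP ▸ (cfc_predicate (fun x : ℝ => x⁻¹) S : IsSelfAdjoint _)
  have c1 : ContinuousOn (fun x : ℝ => x⁻¹) (spectrum ℝ S) := hfin.continuousOn _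
  have c2 : ∀ g : ℝ → ℝ, ContinuousOn g (spectrum ℝ S) := fun g => hfin.continuousOn _
  have e1 : S * P * S = S := by
    conv_lhs =>
      rw [hP, show S = cfc (id : ℝ → ℝ) S from (cfc_id ℝ S hH).symm]
    rw [cfc_id ℝ S hH]
    nth_rewrite 1 [← cfc_id ℝ S hH]
    nth_rewrite 3 [← cfc_id ℝ S hH]
    rw [← cfc_mul _ _ S (c2 _) (c2 _), ← cfc_mul _ _ S (c2 _) (c2 _)]
    conv_rhs => rw [← cfc_id ℝ S hH]
    apply cfc_congr
    intro x _
    simp only [id]
    by_cases hx : x = 0 <;> simp [hx]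
  have e2 : P * S * P = P := by
    rw [hP]
    nth_rewrite 2 [← cfc_id ℝ S hH]
    rw [← cfc_mul _ _ S (c2 _) (c2 _), ← cfc_mul _ _ S (c2 _) (c2 _)]
    apply cfc_congr
    intro x _
    simp only [id]
    by_cases hx : x = 0 <;> simp [hx]
  refine ⟨Vᴴ * P * L, ?_, ?_⟩
  · have z : (L - S * P * L) * (L - S * P * L)ᴴ = 0 := by
      have e3 : (1 - S * P) * S = 0 := by
        rw [Matrix.sub_mul, Matrix.one_mul, e1, sub_self]
      have e4 : L - S * P * L = (1 - S * P) * L := by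
        rw [Matrix.sub_mul, Matrix.one_mul]
      rw [e4, conjTranspose_mul, Matrix.mul_assoc, ← Matrix.mul_assoc L, h, ← hS,
        ← Matrix.mul_assoc, e3, Matrix.zero_mul]
    have := eq_zero_of_mul_conj z
    rw [sub_eq_zero] at this
    conv_lhs => rw [this, hS]
    simp only [Matrix.mul_assoc]
  · have hW : Vᴴ * P * L * (Vᴴ * P * L)ᴴ = Vᴴ * P * V := by
      rw [conjTranspose_mul, conjTranspose_mul, conjTranspose_conjTranspose, hPH]
      calc Vᴴ * P * L * (Lᴴ * (P * V)) = Vᴴ * (P * (L * Lᴴ) * P) * V := by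
            simp only [Matrix.mul_assoc]
        _ = Vᴴ * P * V := by rw [h, ← hS, e2]
    rw [hW]
    have hQ : (Vᴴ * P * V)ᴴ = Vᴴ * P * V := by
      rw [conjTranspose_mul, conjTranspose_mul, conjTranspose_conjTranspose, hPH, Matrix.mul_assoc]
    have hQ2 : Vᴴ * P * V * (Vᴴ * P * V) = Vᴴ * P * V := by
      calc Vᴴ * P * V * (Vᴴ * P * V) = Vᴴ * (P * (V * Vᴴ) * P) * V := by
            simp only [Matrix.mul_assoc]
        _ = Vᴴ * P * V := by rw [← hS, e2]
    have e5 : (1 - Vᴴ * P * V) = (1 - Vᴴ * P * V)ᴴ * (1 - Vᴴ * P * V) := by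
      rw [conjTranspose_sub, conjTranspose_one, hQ, Matrix.sub_mul, Matrix.mul_sub, Matrix.mul_sub,
        Matrix.one_mul, Matrix.one_mul, Matrix.mul_one, hQ2, sub_self, sub_zero]
    rw [e5]
    exact posSemidef_conjTranspose_mul_self _

lemma eve_copies {K : Type*} [Fintype K] [Fintype A] [Fintype B] [DecidableEq B]
    [Fintype E] [DecidableEq E] (V : Matrix (A × B) E ℂ) (hExt : Ext (V * Vᴴ))
    (N : K → Matrix B B ℂ) (hN : ∀ k, (N k).PosSemidef) (hN1 : ∑ k, N k = 1) :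
    ∃ Q : K → Matrix E E ℂ, (∀ k, (Q k).PosSemidef) ∧ (1 - ∑ k, Q k).PosSemidef ∧
      ∀ (M : Matrix A A ℂ) (k : K),
        (Q k * (Vᴴ * (M ⊗ₖ (1 : Matrix B B ℂ)) * V)).trace =
          (Vᴴ * (M ⊗ₖ N k) * V).trace := by
  classical
  obtain ⟨X, hX, h1, h2⟩ := hExt
  obtain ⟨L0, hL0⟩ := psd_eq_mul_conj hX
  let L : Matrix (A × B) (B × (A × (B × B))) ℂ :=
    Matrix.of fun p q => L0 (p.1, (p.2, q.1)) q.2
  have hL : L * Lᴴ = V * Vᴴ := by
    ext ⟨a, b⟩ ⟨a', b'⟩
    rw [← h1, hL0]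
    simp [L, mul_apply, Fintype.sum_prod_type]
  obtain ⟨W, hW, hW1⟩ := exists_contraction V L hL
  let J : K → Matrix (B × (A × (B × B))) (B × (A × (B × B))) ℂ :=
    fun k => (N k)ᵀ ⊗ₖ (1 : Matrix (A × (B × B)) (A × (B × B)) ℂ)
  have hJ : ∀ k, (J k).PosSemidef := fun k => (hN k).transpose.kronecker PosSemidef.one
  have hJ1 : ∑ k, J k = 1 := by
    ext ⟨c, r⟩ ⟨c', r'⟩
    have := congrFun (congrFun hN1 c') c
    simp only [Matrix.sum_apply, one_apply] at this
    simp [J, Matrix.sum_apply, ← Finset.sum_mul, this, one_apply, Prod.ext_iff, eq_comm (a := c')]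
    by_cases hc : c = c' <;> simp [hc]
  refine ⟨fun k => W * J k * Wᴴ, fun k => (hJ k).mul_mul_conjTranspose_same W, ?_, ?_⟩
  · rwa [← Matrix.sum_mul, ← Matrix.mul_sum, hJ1, Matrix.mul_one]
  · intro M k
    have e1 : (W * J k * Wᴴ * (Vᴴ * (M ⊗ₖ (1 : Matrix B B ℂ)) * V)).trace =
        ((M ⊗ₖ (1 : Matrix B B ℂ)) * (L * J k * Lᴴ)).trace := by
      rw [trace_mul_comm, hW, conjTranspose_mul]
      simp only [Matrix.mul_assoc]
      rw [trace_mul_comm]
      simp only [Matrix.mul_assoc]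
    have e2 : (Vᴴ * (M ⊗ₖ N k) * V).trace = ((M ⊗ₖ N k) * (V * Vᴴ)).trace := by
      rw [trace_mul_cycle]
      rw [trace_mul_comm]
    rw [e1, e2]
    have e3 : ∀ a b a' b', (L * J k * Lᴴ) (a', b) (a, b') =
        ∑ c', ∑ c, N k c' c * X (a', (b, c)) (a, (b', c')) := by
      intro a b a' b'
      rw [hL0]
      simp [L, J, mul_apply, Fintype.sum_prod_type (α₁ := B), one_apply, Finset.mul_sum,
        Finset.sum_mul]
      refine Finset.sum_congr rfl fun c' _ => ?_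
      rw [Finset.sum_comm]
      exact Finset.sum_congr rfl fun c _ => Finset.sum_congr rfl fun r _ => by ring
    simp only [trace, diag_apply, mul_apply (M := M ⊗ₖ (1 : Matrix B B ℂ)),
      mul_apply (M := M ⊗ₖ N k), Fintype.sum_prod_type, kroneckerMap_apply, one_apply, mul_ite,
      mul_one, mul_zero, ite_mul, zero_mul, Finset.sum_ite_eq, Finset.mem_univ, if_true, e3, ← h2]
    refine Finset.sum_congr rfl fun a _ => ?_
    rw [Finset.sum_comm]
    refine Eq.trans ?_ Finset.sum_comm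
    refine Finset.sum_congr rfl fun a' _ => ?_
    simp only [Finset.mul_sum]
    rw [Finset.sum_comm]
    refine Finset.sum_congr rfl fun c' _ => ?_
    rw [Finset.sum_comm]
    exact Finset.sum_congr rfl fun c _ => Finset.sum_congr rfl fun b _ => by ring

end Vale.Agent.P372
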