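import Vale.Agent.P372.Eve

/-! The lower bound on the error of key distillation. -/

open Matrix
open scoped Kronecker ComplexOrder MatrixOrder

namespace Vale.Agent.P372

lemma psd_ite {X : Type*} {p : Prop} [Decidable p] {P Q : Matrix X X ℂ}
    (hP : P.PosSemidef) (hQ : Q.PosSemidef) : (if p then P else Q).PosSemidef := by
  split_ifs <;> assumption

lemma kron_sum_left {A B J : Type*} (s : Finset J) (M : J → Matrix A A ℂ) (N : Matrix B B ℂ) :
    (∑ j ∈ s, M j) ⊗ₖ N = ∑ j ∈ s, M j ⊗ₖ N := by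
  ext p q
  simp [Matrix.sum_apply, Finset.sum_mul]

lemma kron_sum_right {A B J : Type*} (s : Finset J) (M : Matrix A A ℂ) (N : J → Matrix B B ℂ) :
    M ⊗ₖ (∑ j ∈ s, N j) = ∑ j ∈ s, M ⊗ₖ N j := by
  ext p q
  simp [Matrix.sum_apply, Finset.mul_sum]

section

variable {J E Key : Type*} [Fintype J] [DecidableEq J] [Fintype E] [DecidableEq E]
  [Fintype Key] [DecidableEq Key]

/-- The joint state of keys and Eve, from unnormalised states `ω` of Eve. -/
def joint (ω : J → Key → Key → Matrix E E ℂ) :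
    Matrix ((Key × Key) × (J × E)) ((Key × Key) × (J × E)) ℂ :=
  blkD fun k => blkD fun j => (ω j k.1 k.2)ᵀ

/-- The perfect key with weight `c` on each value. -/
def perfect (c : ℂ) (σ : Matrix (J × E) (J × E) ℂ) :
    Matrix ((Key × Key) × (J × E)) ((Key × Key) × (J × E)) ℂ :=
  blkD fun k => if k.1 = k.2 then c • σ else 0

lemma test_guess (ω : J → Key → Key → Matrix E E ℂ) (hω : ∀ j a b, (ω j a b).PosSemidef)
    (Q : J → Key → Matrix E E ℂ) (hQ : ∀ j a, (Q j a).PosSemidef)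
    (hQ1 : ∀ j, (1 - ∑ a, Q j a).PosSemidef)
    (hq : ∀ j a, (Q j a * ∑ b, ω j a b).trace = (ω j a a).trace)
    (σ : Matrix (J × E) (J × E) ℂ) (hσ : σ.PosSemidef) (hσ1 : σ.trace = 1)
    (cr : ℝ) (hcr0 : 0 ≤ cr) (c : ℂ) (hc' : c = (cr : ℂ)) :
    (∑ j, ∑ a, (ω j a a).trace.re) - cr ≤ traceNorm (joint ω - perfect c σ) := by
  have hQle : ∀ ts a, (1 - Q ts a).PosSemidef := by
    intro ts a
    have : 1 - Q ts a = (1 - ∑ b, Q ts b) + ∑ b ∈ Finset.univ.erase a, Q ts b := by
      rw [← Finset.add_sum_erase _ _ (Finset.mem_univ a)]; abel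
    rw [this]
    exact (hQ1 ts).add (posSemidef_sum _ fun b _ => hQ ts b)
  have hcσ : (c • σ).PosSemidef := hσ.smul (hc' ▸ Complex.zero_le_real.mpr hcr0)
  have a1 : (blkD fun k : Key × Key => blkD fun ts => (ω ts k.1 k.2)ᵀ).PosSemidef :=
    blkD_psd fun k => blkD_psd fun ts => (hω ts k.1 k.2).transpose
  have a2 : (blkD fun k : Key × Key => if k.1 = k.2 then c • σ else 0).PosSemidef :=
    blkD_psd fun k => psd_ite hcσ PosSemidef.zero
  have hherm := a1.isHermitian.sub a2.isHermitian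
  let U : Key × Key → Matrix (J × E) (J × E) ℂ :=
    fun k => blkD fun ts => (Q ts k.1)ᵀ
  have hU : ∀ k, (U k).PosSemidef := fun k => blkD_psd fun ts => (hQ ts _).transpose
  have hU1 : (1 - blkD U).PosSemidef := by
    rw [blkD_one_sub]
    refine blkD_psd fun k => ?_
    simp only [U]
    rw [blkD_one_sub]
    refine blkD_psd fun ts => ?_
    rw [← transpose_one, ← transpose_sub]
    exact (hQle ts _).transpose
  refine le_trans ?_ (le_traceNorm (blkD_psd hU) hU1 hherm)
  have d1 : (blkD U * perfect c σ).trace.re ≤ cr := by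
    rw [perfect, trace_blkD_mul]
    have : ∑ k : Key × Key,
        (U k * (if k.1 = k.2 then c • σ else 0)).trace =
        c * (blkD (fun ts => (∑ a, Q ts a)ᵀ) * σ).trace := by
      have e : blkD (fun ts => (∑ a, Q ts a)ᵀ) = ∑ a, blkD (fun ts => (Q ts a)ᵀ) := by
        rw [blkD_sum]
        simp only [transpose_sum]
      rw [e, Matrix.sum_mul, trace_sum, Finset.mul_sum, Fintype.sum_prod_type]
      refine Finset.sum_congr rfl fun a _ => ?_
      rw [Finset.sum_eq_single a]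
      · simp [U]
      · intro b _ hb
        simp [Ne.symm hb]
      · simp
    rw [this, hc', Complex.re_ofReal_mul]
    refine mul_le_of_le_one_right hcr0 ?_
    have h0 : (1 - blkD (fun ts => (∑ a, Q ts a)ᵀ)).PosSemidef := by
      rw [blkD_one_sub]
      refine blkD_psd fun ts => ?_
      rw [← transpose_one, ← transpose_sub]
      exact (hQ1 ts).transpose
    have := trace_mul_le h0 hσ
    rwa [hσ1, Complex.one_re] at this
  have d2 : (∑ ts, ∑ a, (ω ts a a).trace.re) = (blkD U * joint ω).trace.re := by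
    rw [joint, trace_blkD_mul]
    simp only [U, trace_blkD_mul, ← transpose_mul, trace_transpose, Complex.re_sum]
    rw [Finset.sum_comm (γ := Key × Key)]
    refine Finset.sum_congr rfl fun ts _ => ?_
    rw [Fintype.sum_prod_type]
    refine Finset.sum_congr rfl fun a _ => ?_
    dsimp only
    rw [← Complex.re_sum, ← trace_sum, ← Matrix.sum_mul, trace_mul_comm, hq]
  rw [d2, Matrix.mul_sub, trace_sub, Complex.sub_re]
  linarith

lemma test_disagree (ω : J → Key → Key → Matrix E E ℂ) (hω : ∀ j a b, (ω j a b).PosSemidef)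
    (σ : Matrix (J × E) (J × E) ℂ) (hσ : σ.PosSemidef)
    (cr : ℝ) (hcr0 : 0 ≤ cr) (c : ℂ) (hc' : c = (cr : ℂ)) :
    (∑ j, ∑ a, ∑ b, if a = b then 0 else (ω j a b).trace.re) ≤
      traceNorm (joint ω - perfect c σ) := by
  have hcσ : (c • σ).PosSemidef := hσ.smul (hc' ▸ Complex.zero_le_real.mpr hcr0)
  have a1 : (blkD fun k : Key × Key => blkD fun ts => (ω ts k.1 k.2)ᵀ).PosSemidef :=
    blkD_psd fun k => blkD_psd fun ts => (hω ts k.1 k.2).transpose
  have a2 : (blkD fun k : Key × Key => if k.1 = k.2 then c • σ else 0).PosSemidef :=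
    blkD_psd fun k => psd_ite hcσ PosSemidef.zero
  have hherm := a1.isHermitian.sub a2.isHermitian
  rw [joint, perfect]
  let U : Key × Key → Matrix (J × E) (J × E) ℂ :=
    fun k => blkD fun _ => if k.1 = k.2 then 0 else 1
  have hU : ∀ k, (U k).PosSemidef := fun k => blkD_psd fun _ =>
    psd_ite PosSemidef.zero PosSemidef.one
  have hU1 : (1 - blkD U).PosSemidef := by
    rw [blkD_one_sub]
    refine blkD_psd fun k => ?_
    simp only [U]
    rw [blkD_one_sub]
    refine blkD_psd fun ts => ?_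
    split_ifs <;> simp [PosSemidef.one, PosSemidef.zero]
  refine le_trans (le_of_eq ?_) (le_traceNorm (blkD_psd hU) hU1 hherm)
  rw [Matrix.mul_sub, trace_sub, trace_blkD_mul, trace_blkD_mul]
  have z : ∀ k : Key × Key,
      (U k * (if k.1 = k.2 then c • σ else 0)).trace = 0 := by
    intro k
    split_ifs with hk
    · have : U k = 0 := by
        ext p q
        simp [U, hk, blkD]
      simp [this]
    · simp
  rw [Finset.sum_eq_zero fun k _ => z k, sub_zero]
  simp only [U, trace_blkD_mul, Complex.re_sum]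
  rw [Finset.sum_comm (γ := Key × Key)]
  refine Finset.sum_congr rfl fun ts _ => ?_
  rw [Fintype.sum_prod_type]
  refine Finset.sum_congr rfl fun a _ => Finset.sum_congr rfl fun b _ => ?_
  by_cases hab : a = b <;> simp [hab, trace_transpose]

end

lemma error_bound_gen {A B X T S E Key : Type*} [Fintype Key] [DecidableEq Key] [Fintype A]
    [DecidableEq A] [Fintype B]
    [DecidableEq B] [Fintype X] [DecidableEq X] [Fintype T] [DecidableEq T] [Fintype S]
    [DecidableEq S] [Fintype E] [DecidableEq E]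
    (V : Matrix X E ℂ) (K : T → Matrix (A × B) X ℂ)
    (M : T → S → Key → Matrix A A ℂ) (N : T → S → Key → Matrix B B ℂ)
    (σ : Matrix ((T × S) × E) ((T × S) × E) ℂ)
    (hExt : ∀ t, Ext ((K t * V) * (K t * V)ᴴ)) (hV : (Vᴴ * V).trace = 1)
    (hK : ∑ t, (K t)ᴴ * K t = 1)
    (hM : ∀ t s x, (M t s x).PosSemidef) (hM1 : ∀ t, ∑ s, ∑ x, M t s x = 1)
    (hN : ∀ t s x, (N t s x).PosSemidef) (hN1 : ∀ t s, ∑ x, N t s x = 1)
    (hσ : σ.PosSemidef) (hσ1 : σ.trace = 1) (cr : ℝ) (hcr0 : 0 ≤ cr) (c : ℂ) (hc' : c = (cr : ℂ))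
    (Id : Matrix ((Key × Key) × ((T × S) × E)) ((Key × Key) × ((T × S) × E)) ℂ)
    (hid : Id = blkD (fun k : Key × Key => if k.1 = k.2 then c • σ else 0)) :
    (1 - cr) / 2 ≤ traceNorm (finalState V K M N - Id) := by
  let ω : T × S → Key → Key → Matrix E E ℂ := fun ts a b =>
    (K ts.1 * V)ᴴ * (M ts.1 ts.2 a ⊗ₖ N ts.1 ts.2 b) * (K ts.1 * V)
  have hω : ∀ ts a b, (ω ts a b).PosSemidef := fun ts a b =>
    ((hM _ _ _).kronecker (hN _ _ _)).conjTranspose_mul_mul_same _
  choose Q hQ hQ1 hQc using fun ts : T × S =>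
    eve_copies (K ts.1 * V) (hExt ts.1) (N ts.1 ts.2) (hN ts.1 ts.2) (hN1 ts.1 ts.2)
  have hjoint : finalState V K M N = joint ω := rfl
  have hid' : Id = perfect c σ := hid
  rw [hjoint, hid']
  have hq : ∀ ts a, (Q ts a * ∑ b, ω ts a b).trace = (ω ts a a).trace := by
    intro ts a
    simp only [ω]
    rw [← Matrix.sum_mul, ← Matrix.mul_sum, ← kron_sum_right, hN1, hQc]
  have key1 := test_guess ω hω Q hQ hQ1 hq σ hσ hσ1 cr hcr0 c hc'
  have key2 := test_disagree ω hω σ hσ cr hcr0 c hc'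
  have total : ∑ ts, ∑ a, ∑ b, (ω ts a b).trace.re = 1 := by
    have e : ∑ ts, ∑ a, ∑ b, ω ts a b = Vᴴ * (∑ t, (K t)ᴴ * K t) * V := by
      simp only [ω, ← Matrix.sum_mul, ← Matrix.mul_sum, ← kron_sum_right, hN1]
      rw [Fintype.sum_prod_type]
      simp only [← Matrix.sum_mul, ← Matrix.mul_sum, ← kron_sum_left, hM1, one_kronecker_one,
        conjTranspose_mul, Matrix.mul_assoc]
      simp only [Matrix.mul_sum, Matrix.one_mul, Matrix.sum_mul, Matrix.mul_assoc]
    rw [hK, Matrix.mul_one] at e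
    calc ∑ ts, ∑ a, ∑ b, (ω ts a b).trace.re = (∑ ts, ∑ a, ∑ b, ω ts a b).trace.re := by
          simp only [trace_sum, Complex.re_sum]
      _ = 1 := by rw [e, hV, Complex.one_re]
  have split : (∑ ts, ∑ a, (ω ts a a).trace.re) +
      (∑ ts, ∑ a, ∑ b, if a = b then 0 else (ω ts a b).trace.re) = 1 := by
    rw [← total, ← Finset.sum_add_distrib]
    refine Finset.sum_congr rfl fun ts _ => ?_
    rw [← Finset.sum_add_distrib]
    refine Finset.sum_congr rfl fun a _ => ?_
    rw [← Finset.add_sum_erase _ (fun b => (ω ts a b).trace.re) (Finset.mem_univ a)]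
    congr 1
    rw [← Finset.sum_erase Finset.univ (a := a)
      (f := fun b => if a = b then 0 else (ω ts a b).trace.re) (if_pos rfl)]
    exact Finset.sum_congr rfl fun b hb => by rw [if_neg (Finset.ne_of_mem_erase hb).symm]
  linarith

lemma error_bound {A B X T S E : Type*} {L : ℕ} [Fintype A] [DecidableEq A] [Fintype B]
    [DecidableEq B] [Fintype X] [DecidableEq X] [Fintype T] [DecidableEq T] [Fintype S]
    [DecidableEq S] [Fintype E] [DecidableEq E]
    (V : Matrix X E ℂ) (K : T → Matrix (A × B) X ℂ)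
    (M : T → S → (Fin L → Bool) → Matrix A A ℂ) (N : T → S → (Fin L → Bool) → Matrix B B ℂ)
    (σ : Matrix ((T × S) × E) ((T × S) × E) ℂ)
    (hExt : ∀ t, Ext ((K t * V) * (K t * V)ᴴ)) (hV : (Vᴴ * V).trace = 1)
    (hK : ∑ t, (K t)ᴴ * K t = 1)
    (hM : ∀ t s x, (M t s x).PosSemidef) (hM1 : ∀ t, ∑ s, ∑ x, M t s x = 1)
    (hN : ∀ t s x, (N t s x).PosSemidef) (hN1 : ∀ t s, ∑ x, N t s x = 1)
    (hσ : σ.PosSemidef) (hσ1 : σ.trace = 1) :
    (1 - ((2 : ℝ) ^ L)⁻¹) / 2 ≤ traceNorm (finalState V K M N - idealState L σ) :=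
  error_bound_gen V K M N σ hExt hV hK hM hM1 hN hN1 hσ hσ1 ((2 : ℝ) ^ L)⁻¹ (by positivity)
    ((2 : ℂ) ^ L)⁻¹ (by simp) (idealState L σ) rfl

lemma win_piP {A B I : Type*} [Fintype I] [Fintype A] [DecidableEq A] [Fintype B] [DecidableEq B]
    (ρ : Matrix (A × B) (A × B) ℂ) (lam mu : ℝ) (hl : 0 ≤ lam)
    (hlo : (ρ - (lam : ℂ) • 1).PosSemidef) (hhi : ((mu : ℂ) • 1 - ρ).PosSemidef)
    (hn : mu ^ Fintype.card I ≤ 2 * lam ^ Fintype.card I) : Win (piP fun _ : I => ρ) := by
  classical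
  let n := Fintype.card I
  have hl1 : (((lam : ℂ) • 1 : Matrix (A × B) (A × B) ℂ)).PosSemidef :=
    PosSemidef.one.smul (Complex.zero_le_real.mpr hl)
  have hρ : ρ.PosSemidef := by
    simpa using hlo.add hl1
  let f : (I → A) × (I → B) → I → A × B := fun p i => (p.1 i, p.2 i)
  have hinj : Function.Injective f := (Equiv.arrowProdEquivProdArrow I _ _).symm.injective
  have h1 : (piP (fun _ : I => ρ) - ((lam ^ n : ℝ) : ℂ) • 1).PosSemidef := by
    have := (piK_add_sub_psd (M := fun _ : I => (lam : ℂ) • (1 : Matrix (A × B) (A × B) ℂ))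
      (fun _ => hl1) (fun _ => hlo)).submatrix f
    simp only [add_sub_cancel, piK_smul_one] at this
    simp only [submatrix_sub, submatrix_smul, Pi.sub_apply, Pi.smul_apply, submatrix_one f hinj]
      at this
    simpa [piP_eq, f, n] using this
  have h2 : (((mu ^ n : ℝ) : ℂ) • 1 - piP (fun _ : I => ρ)).PosSemidef := by
    have := (piK_add_sub_psd (M := fun _ : I => ρ)
      (fun _ => hρ) (fun _ => hhi)).submatrix f
    simp only [add_sub_cancel, piK_smul_one] at this
    simp only [submatrix_sub, submatrix_smul, Pi.sub_apply, Pi.smul_apply, submatrix_one f hinj]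
      at this
    simpa [piP_eq, f, n] using this
  refine ⟨((lam ^ n : ℝ) : ℂ) • 1, 1, PosSemidef.one.smul (Complex.zero_le_real.mpr (by positivity)),
    PosSemidef.one, ?_, ?_⟩
  · rw [smul_kronecker, one_kronecker_one]
    exact h1
  · rw [smul_kronecker, one_kronecker_one]
    have e : (2 : ℂ) • ((lam ^ n : ℝ) : ℂ) • (1 : Matrix ((I → A) × (I → B)) _ ℂ) - piP (fun _ => ρ)
        = ((2 * lam ^ n - mu ^ n : ℝ) : ℂ) • 1 +
          (((mu ^ n : ℝ) : ℂ) • 1 - piP (fun _ => ρ)) := by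
      rw [smul_smul]
      push_cast
      rw [sub_smul]
      abel
    rw [e]
    exact (PosSemidef.one.smul (Complex.zero_le_real.mpr (by linarith))).add h2

theorem keyFree_of_window {d : ℕ} (n : ℕ) (ρ : Matrix (Fin d × Fin d) (Fin d × Fin d) ℂ)
    (lam mu : ℝ) (hl : 0 ≤ lam) (hlo : (ρ - (lam : ℂ) • 1).PosSemidef)
    (hhi : ((mu : ℂ) • 1 - ρ).PosSemidef) (hn : mu ^ n ≤ 2 * lam ^ n) (htr : ρ.trace = 1) :
    KeyFree n ρ := by
  intro m e T S a b L V G h M N σ _ hV hcomp hM hM1 hN hN1 hσ hσ1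
  classical
  have hblk : Win (piP fun _ : Fin n => ρ) :=
    win_piP ρ lam mu hl hlo hhi (by simpa using hn)
  refine error_bound V _ M N σ (fun t => ?_) ?_ ?_ hM hM1 hN hN1 hσ hσ1
  · have e1 : (G t ⊗ₖ piK (h t)) =
        (G t ⊗ₖ (1 : Matrix (Fin m → Fin b) (Fin m → Fin b) ℂ)) *
          ((1 : Matrix (Fin m → Fin n → Fin d) (Fin m → Fin n → Fin d) ℂ) ⊗ₖ piK (h t)) := by
      rw [← mul_kronecker_mul, Matrix.mul_one, Matrix.one_mul]
    have e2 : (G t ⊗ₖ piK (h t)) * V * ((G t ⊗ₖ piK (h t)) * V)ᴴ =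
        (G t ⊗ₖ (1 : Matrix (Fin m → Fin b) (Fin m → Fin b) ℂ)) *
          piP (fun i : Fin m => ((1 : Matrix (Fin n → Fin d) (Fin n → Fin d) ℂ) ⊗ₖ h t i) *
            piP (fun _ : Fin n => ρ) * ((1 : Matrix (Fin n → Fin d) (Fin n → Fin d) ℂ) ⊗ₖ h t i)ᴴ) *
          (G t ⊗ₖ (1 : Matrix (Fin m → Fin b) (Fin m → Fin b) ℂ))ᴴ := by
      rw [← piP_filter, ← hV, e1]
      simp only [conjTranspose_mul, Matrix.mul_assoc]
    rw [e2]
    exact ext_left (ext_piP fun i => win_ext (win_filter hblk (h t i))) (G t)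
  · rw [trace_mul_comm, hV, piP_trace]
    simp [piP_trace, htr]
  · simp only [conjTranspose_kronecker, ← mul_kronecker_mul]
    exact hcomp

end Vale.Agent.P372
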