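import Vale.Agent.P372.Main

/-! Werner states close to the maximally mixed state in large dimension. -/

open Matrix
open scoped Kronecker ComplexOrder MatrixOrder

namespace Vale.Agent.P372

variable {d : ℕ}

/-- The swap of two `d`-level systems. -/
def flipM (d : ℕ) : Matrix (Fin d × Fin d) (Fin d × Fin d) ℂ :=
  Matrix.of fun p q => if p = q.swap then 1 else 0

/-- The Werner state proportional to `1 - x F`. -/
noncomputable def werner (d : ℕ) (x : ℝ) : Matrix (Fin d × Fin d) (Fin d × Fin d) ℂ :=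
  (((d : ℝ) * d - x * d)⁻¹ : ℝ) • ((1 : Matrix (Fin d × Fin d) (Fin d × Fin d) ℂ) - x • flipM d)

lemma flipM_conj : (flipM d)ᴴ = flipM d := by
  ext p q
  simp only [flipM, conjTranspose_apply, of_apply]
  by_cases h : q = p.swap
  · subst h
    simp
  · rw [if_neg h, if_neg (fun h' => h (by rw [h', Prod.swap_swap]))]
    simp

lemma flipM_sq : flipM d * flipM d = 1 := by
  ext p q
  simp [flipM, mul_apply, one_apply, Finset.sum_ite_eq']

lemma one_add_flip_psd : ((1 : Matrix (Fin d × Fin d) (Fin d × Fin d) ℂ) + flipM d).PosSemidef := by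
  have e : (1 : Matrix (Fin d × Fin d) (Fin d × Fin d) ℂ) + flipM d =
      (1 / 2 : ℝ) • ((1 + flipM d)ᴴ * (1 + flipM d)) := by
    rw [conjTranspose_add, conjTranspose_one, flipM_conj, Matrix.add_mul, Matrix.mul_add,
      Matrix.mul_add, flipM_sq, Matrix.one_mul, Matrix.one_mul, Matrix.mul_one]
    module
  rw [e]
  exact (posSemidef_conjTranspose_mul_self _).smul (by norm_num)

lemma one_sub_flip_psd : ((1 : Matrix (Fin d × Fin d) (Fin d × Fin d) ℂ) - flipM d).PosSemidef := by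
  have e : (1 : Matrix (Fin d × Fin d) (Fin d × Fin d) ℂ) - flipM d =
      (1 / 2 : ℝ) • ((1 - flipM d)ᴴ * (1 - flipM d)) := by
    rw [conjTranspose_sub, conjTranspose_one, flipM_conj, Matrix.sub_mul, Matrix.mul_sub,
      Matrix.mul_sub, flipM_sq, Matrix.one_mul, Matrix.one_mul, Matrix.mul_one]
    module
  rw [e]
  exact (posSemidef_conjTranspose_mul_self _).smul (by norm_num)

lemma den_pos {x : ℝ} (hd : 2 ≤ d) (hx : x < 1) : 0 < (d : ℝ) * d - x * d := by
  have : (2 : ℝ) ≤ d := by exact_mod_cast hd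
  nlinarith

lemma werner_window {x : ℝ} (hd : 2 ≤ d) (hx0 : 0 ≤ x) (hx : x < 1) :
    (werner d x - ((((d : ℝ) * d - x * d)⁻¹ * (1 - x) : ℝ) : ℂ) • 1).PosSemidef ∧
      (((((d : ℝ) * d - x * d)⁻¹ * (1 + x) : ℝ) : ℂ) • 1 - werner d x).PosSemidef := by
  have hp : 0 ≤ ((d : ℝ) * d - x * d)⁻¹ * x := mul_nonneg (inv_nonneg.mpr (den_pos hd hx).le) hx0
  simp only [Complex.coe_smul, werner]
  constructor
  · refine Eq.subst (motive := Matrix.PosSemidef) ?_ (one_sub_flip_psd.smul hp)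
    module
  · refine Eq.subst (motive := Matrix.PosSemidef) ?_ (one_add_flip_psd.smul hp)
    module

lemma werner_trace {x : ℝ} (hd : 2 ≤ d) (hx : x < 1) : (werner d x).trace = 1 := by
  have hF : (flipM d).trace = d := by
    simp only [trace, diag_apply, flipM, of_apply, Fintype.sum_prod_type, Prod.swap_prod_mk,
      Prod.mk.injEq]
    simp [eq_comm, and_self]
  have h1 : ((((d : ℝ) * d - x * d : ℝ)) : ℂ) ≠ 0 := by exact_mod_cast (den_pos hd hx).ne'
  simp only [werner, trace_smul, trace_sub, hF, trace_one, Fintype.card_prod, Fintype.card_fin,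
    Complex.real_smul]
  push_cast at h1 ⊢
  exact inv_mul_cancel₀ h1

lemma werner_swap (x : ℝ) : (werner d x).submatrix Prod.swap Prod.swap = werner d x := by
  ext p q
  obtain ⟨a, b⟩ := p
  obtain ⟨a', b'⟩ := q
  simp [werner, flipM, one_apply, and_comm]

lemma sep_swap_nonneg {ρ : Matrix (Fin d × Fin d) (Fin d × Fin d) ℂ} (h : IsSep ρ) :
    0 ≤ (∑ p, ρ p p.swap).re := by
  obtain ⟨k, x, y, hx, hy, rfl⟩ := h
  have e : ∑ p : Fin d × Fin d, (∑ i, x i ⊗ₖ y i) p p.swap = ∑ i, (x i * y i).trace := by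
    simp only [Matrix.sum_apply]
    rw [Finset.sum_comm]
    refine Finset.sum_congr rfl fun i _ => ?_
    simp [trace, mul_apply, Fintype.sum_prod_type]
  rw [e, Complex.re_sum]
  exact Finset.sum_nonneg fun i _ => psd_trace_mul_nonneg (hx i) (hy i)

lemma werner_not_sep {x : ℝ} (hd : 2 ≤ d) (hx : x < 1) (hxd : 1 < x * d) :
    ¬ IsSep (werner d x) := by
  intro h
  have h0 := sep_swap_nonneg h
  have e : ∑ p : Fin d × Fin d, werner d x p p.swap =
      ((((d : ℝ) * d - x * d)⁻¹ * ((d : ℝ) - x * ((d : ℝ) * d)) : ℝ) : ℂ) := by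
    have h1 : ∑ p : Fin d × Fin d, (1 : Matrix (Fin d × Fin d) (Fin d × Fin d) ℂ) p p.swap = d := by
      simp only [Fintype.sum_prod_type, one_apply, Prod.swap_prod_mk, Prod.mk.injEq]
      simp [eq_comm, and_self]
    have h2 : ∀ p : Fin d × Fin d, flipM d p p.swap = 1 := fun p => by simp [flipM]
    simp only [werner, Matrix.smul_apply, Matrix.sub_apply, h2, Complex.real_smul, ← Finset.mul_sum,
      Finset.sum_sub_distrib, h1, Finset.sum_const, Finset.card_univ, Fintype.card_prod,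
      Fintype.card_fin, nsmul_eq_mul]
    push_cast
    ring
  rw [e, Complex.ofReal_re] at h0
  have hd' : (2 : ℝ) ≤ d := by exact_mod_cast hd
  have := den_pos hd hx
  have : 0 ≤ (d : ℝ) - x * ((d : ℝ) * d) := by
    by_contra hneg
    push Not at hneg
    nlinarith [mul_pos (inv_pos.mpr this) (neg_pos.mpr hneg)]
  nlinarith

lemma pow_window {n : ℕ} {x : ℝ} (hx0 : 0 ≤ x) (hx1 : x ≤ 1) (hn : (n : ℝ) * x ≤ 1 / 4) :
    (1 + x) ^ n ≤ 2 * (1 - x) ^ n := by
  have h1 : 3 / 4 ≤ (1 - x) ^ n := by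
    have := one_add_mul_le_pow (a := -x) (by linarith) n
    rw [← sub_eq_add_neg] at this
    nlinarith
  have h2 : (1 + x) ^ n * (1 - x) ^ n ≤ 1 := by
    rw [← mul_pow]
    exact pow_le_one₀ (by nlinarith) (by nlinarith)
  have h3 : 0 ≤ (1 + x) ^ n := by positivity
  nlinarith

theorem werner_keyFree {n : ℕ} {x : ℝ} (hd : 2 ≤ d) (hx0 : 0 ≤ x) (hx : x < 1)
    (hn : (1 + x) ^ n ≤ 2 * (1 - x) ^ n) : KeyFree n (werner d x) := by
  have hc : 0 ≤ ((d : ℝ) * d - x * d)⁻¹ := inv_nonneg.mpr (den_pos hd hx).le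
  refine keyFree_of_window n _ _ _ (mul_nonneg hc (by linarith)) (werner_window hd hx0 hx).1
    (werner_window hd hx0 hx).2 ?_ (werner_trace hd hx)
  rw [mul_pow, mul_pow]
  nlinarith [pow_nonneg hc n]

lemma werner_psd {x : ℝ} (hd : 2 ≤ d) (hx0 : 0 ≤ x) (hx : x < 1) : (werner d x).PosSemidef := by
  have hc : 0 ≤ ((d : ℝ) * d - x * d)⁻¹ * (1 - x) :=
    mul_nonneg (inv_nonneg.mpr (den_pos hd hx).le) (by linarith)
  simpa using (werner_window hd hx0 hx).1.add (PosSemidef.one.smul (Complex.zero_le_real.mpr hc))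

end Vale.Agent.P372
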