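import Vale.Agent.P372.Basic

/-! States in a product window have symmetric extensions, stably under local filters. -/

open Matrix
open scoped Kronecker ComplexOrder MatrixOrder

namespace Vale.Agent.P372

variable {A A' B B' I : Type*}

/-- `σ` has an extension to two copies of the second system, with both marginals equal to `σ`. -/
def Ext [Fintype B] (σ : Matrix (A × B) (A × B) ℂ) : Prop :=
  ∃ E : Matrix (A × (B × B)) (A × (B × B)) ℂ, E.PosSemidef ∧
    (∀ a b a' b', ∑ c, E (a, (b, c)) (a', (b', c)) = σ (a, b) (a', b')) ∧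
    (∀ a b a' b', ∑ c, E (a, (c, b)) (a', (c, b')) = σ (a, b) (a', b'))

/-- `σ` lies between a positive product operator and twice that operator. -/
def Win (σ : Matrix (A × B) (A × B) ℂ) : Prop :=
  ∃ (P : Matrix A A ℂ) (Q : Matrix B B ℂ), P.PosSemidef ∧ Q.PosSemidef ∧
    (σ - P ⊗ₖ Q).PosSemidef ∧ ((2 : ℂ) • (P ⊗ₖ Q) - σ).PosSemidef

lemma win_ext [Fintype A] [Fintype B] {σ : Matrix (A × B) (A × B) ℂ} (h : Win σ) : Ext σ := by
  classical
  obtain ⟨P, Q, hP, hQ, hlo, hhi⟩ := h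
  by_cases hz : Q.trace = 0
  · have q0 : Q = 0 := hQ.trace_eq_zero_iff.mp hz
    subst q0
    simp only [kronecker_zero, sub_zero, smul_zero, zero_sub] at hlo hhi
    have t0 : σ.trace = 0 := by
      apply le_antisymm _ hlo.trace_nonneg
      have := hhi.trace_nonneg
      rw [trace_neg] at this
      exact neg_nonneg.mp this
    have s0 : σ = 0 := hlo.trace_eq_zero_iff.mp t0
    subst s0
    exact ⟨0, PosSemidef.zero, by simp, by simp⟩
  obtain ⟨tr, htr⟩ : ∃ tr : ℂ, Q.trace = tr := ⟨_, rfl⟩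
  rw [htr] at hz
  have htr0 : 0 ≤ tr := htr ▸ hQ.trace_nonneg
  obtain ⟨β, hβQ⟩ : ∃ β : Matrix B B ℂ, β = tr⁻¹ • Q := ⟨_, rfl⟩
  have hinv : (0 : ℂ) ≤ tr⁻¹ := by
    have h1 := Complex.nonneg_iff.mp htr0
    have h2 : tr = ((tr.re : ℝ) : ℂ) := Complex.ext rfl h1.2.symm
    rw [h2, ← Complex.ofReal_inv]
    exact Complex.zero_le_real.mpr (inv_nonneg.mpr h1.1)
  have hβ : β.PosSemidef := hβQ ▸ hQ.smul hinv
  have hβt : ∑ c, β c c = 1 := by
    have : β.trace = 1 := by rw [hβQ, trace_smul, htr, smul_eq_mul, inv_mul_cancel₀ hz]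
    exact this
  have hQβ : ∀ i j, Q i j = tr * β i j := fun i j => by
    rw [hβQ]; simp [← mul_assoc, mul_inv_cancel₀ hz]
  let sA : Matrix A A ℂ := Matrix.of fun a a' => ∑ b, σ (a, b) (a', b)
  have hA : (((2 : ℂ) * tr) • P - sA).PosSemidef := by
    have e : ((2 : ℂ) * tr) • P - sA =
        ∑ b, ((2 : ℂ) • (P ⊗ₖ Q) - σ).submatrix (fun a => (a, b)) (fun a => (a, b)) := by
      ext a a'
      simp [sA, Matrix.sum_apply, Finset.sum_sub_distrib, ← Finset.mul_sum, ← htr, trace]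
      ring
    rw [e]
    exact posSemidef_sum _ fun b _ => hhi.submatrix _
  refine ⟨Matrix.of fun p q => σ (p.1, p.2.1) (q.1, q.2.1) * β p.2.2 q.2.2 +
      σ (p.1, p.2.2) (q.1, q.2.2) * β p.2.1 q.2.1 -
      sA p.1 q.1 * (β p.2.1 q.2.1 * β p.2.2 q.2.2), ?_, ?_, ?_⟩
  · have p1 := (hlo.kronecker hβ).submatrix (fun p : A × (B × B) => ((p.1, p.2.1), p.2.2))
    have p2 := (hlo.kronecker hβ).submatrix (fun p : A × (B × B) => ((p.1, p.2.2), p.2.1))
    have p3 := hA.kronecker (hβ.kronecker hβ)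
    refine Eq.subst (motive := Matrix.PosSemidef) ?_ ((p1.add p2).add p3)
    ext p q
    simp [hQβ]
    ring
  · intro a b a' b'
    simp only [of_apply, Finset.sum_sub_distrib, Finset.sum_add_distrib, ← Finset.mul_sum,
      ← Finset.sum_mul, hβt, sA]
    ring
  · intro a b a' b'
    simp only [of_apply, Finset.sum_sub_distrib, Finset.sum_add_distrib, ← Finset.mul_sum,
      ← Finset.sum_mul, hβt, sA]
    ring

lemma win_filter [Fintype A] [DecidableEq A] [Fintype B] [Fintype B']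
    {σ : Matrix (A × B) (A × B) ℂ} (h : Win σ) (F : Matrix B' B ℂ) :
    Win (((1 : Matrix A A ℂ) ⊗ₖ F) * σ * ((1 : Matrix A A ℂ) ⊗ₖ F)ᴴ) := by
  obtain ⟨P, Q, hP, hQ, hlo, hhi⟩ := h
  have e : ((1 : Matrix A A ℂ) ⊗ₖ F) * (P ⊗ₖ Q) * ((1 : Matrix A A ℂ) ⊗ₖ F)ᴴ =
      P ⊗ₖ (F * Q * Fᴴ) := by
    rw [conjTranspose_kronecker, conjTranspose_one, ← mul_kronecker_mul, ← mul_kronecker_mul,
      Matrix.one_mul, Matrix.mul_one]
  refine ⟨P, F * Q * Fᴴ, hP, hQ.mul_mul_conjTranspose_same F, ?_, ?_⟩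
  · rw [← e, ← Matrix.sub_mul, ← Matrix.mul_sub]
    exact hlo.mul_mul_conjTranspose_same _
  · rw [← e, ← Matrix.smul_mul, ← Matrix.mul_smul, ← Matrix.sub_mul, ← Matrix.mul_sub]
    exact hhi.mul_mul_conjTranspose_same _

lemma conj_left_apply [Fintype A] [Fintype B] [DecidableEq B] (G : Matrix A' A ℂ)
    (σ : Matrix (A × B) (A × B) ℂ) (a a' : A') (b b' : B) :
    ((G ⊗ₖ (1 : Matrix B B ℂ)) * σ * (G ⊗ₖ (1 : Matrix B B ℂ))ᴴ) (a, b) (a', b') =
      ∑ y, ∑ x, G a x * σ (x, b) (y, b') * star (G a' y) := by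
  simp [mul_apply, Fintype.sum_prod_type, one_apply, conjTranspose_apply, Finset.sum_mul,
    apply_ite star]

lemma ext_left [Fintype A] [Fintype A'] [Fintype B] [DecidableEq B]
    {σ : Matrix (A × B) (A × B) ℂ} (h : Ext σ) (G : Matrix A' A ℂ) :
    Ext ((G ⊗ₖ (1 : Matrix B B ℂ)) * σ * (G ⊗ₖ (1 : Matrix B B ℂ))ᴴ) := by
  obtain ⟨E, hE, h1, h2⟩ := h
  refine ⟨(G ⊗ₖ (1 : Matrix (B × B) (B × B) ℂ)) * E * (G ⊗ₖ (1 : Matrix (B × B) (B × B) ℂ))ᴴ,
    hE.mul_mul_conjTranspose_same _, ?_, ?_⟩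
  · intro a b a' b'
    simp only [conj_left_apply, ← h1, Finset.mul_sum, Finset.sum_mul]
    rw [Finset.sum_comm]
    exact Finset.sum_congr rfl fun y _ => Finset.sum_comm
  · intro a b a' b'
    simp only [conj_left_apply, ← h2, Finset.mul_sum, Finset.sum_mul]
    rw [Finset.sum_comm]
    exact Finset.sum_congr rfl fun y _ => Finset.sum_comm

lemma ext_piP [Fintype I] [Fintype A] [Fintype B] [DecidableEq I]
    {σ : I → Matrix (A × B) (A × B) ℂ} (h : ∀ i, Ext (σ i)) : Ext (piP σ) := by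
  choose E hE h1 h2 using h
  refine ⟨(piK E).submatrix (fun p i => (p.1 i, (p.2.1 i, p.2.2 i)))
    (fun p i => (p.1 i, (p.2.1 i, p.2.2 i))), (piK_psd hE).submatrix _, ?_, ?_⟩
  · intro a b a' b'
    simp only [submatrix_apply, piK, piP, of_apply, ← h1, Fintype.prod_sum]
  · intro a b a' b'
    simp only [submatrix_apply, piK, piP, of_apply, ← h2, Fintype.prod_sum]

lemma piK_one [Fintype I] [DecidableEq A] [DecidableEq I] :
    piK (fun _ : I => (1 : Matrix A A ℂ)) = 1 := by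
  simpa using piK_smul_one (I := I) (A := A) (1 : ℂ)

lemma piP_filter [Fintype I] [DecidableEq I] [Fintype A] [DecidableEq A] [Fintype B]
    (F : I → Matrix B' B ℂ) (σ : I → Matrix (A × B) (A × B) ℂ) :
    ((1 : Matrix (I → A) (I → A) ℂ) ⊗ₖ piK F) * piP σ *
        ((1 : Matrix (I → A) (I → A) ℂ) ⊗ₖ piK F)ᴴ =
      piP (fun i => ((1 : Matrix A A ℂ) ⊗ₖ F i) * σ i * ((1 : Matrix A A ℂ) ⊗ₖ F i)ᴴ) := by
  have e : (1 : Matrix (I → A) (I → A) ℂ) ⊗ₖ piK F =
      (piK fun i => (1 : Matrix A A ℂ) ⊗ₖ F i).submatrix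
        (fun p i => (p.1 i, p.2 i))
        ((Equiv.arrowProdEquivProdArrow I (fun _ => A) (fun _ => B)).symm) := by
    ext p q
    rw [← piK_one]
    simp [piK, Finset.prod_mul_distrib, Equiv.arrowProdEquivProdArrow]
  have es : piP σ = (piK σ).submatrix
      ((Equiv.arrowProdEquivProdArrow I (fun _ => A) (fun _ => B)).symm)
      ((Equiv.arrowProdEquivProdArrow I (fun _ => A) (fun _ => B)).symm) := rfl
  rw [e, es, conjTranspose_submatrix, submatrix_mul_equiv, submatrix_mul_equiv, piK_conj, piK_mul,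
    piK_mul]
  rfl

end Vale.Agent.P372
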